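import Mathlib

/-!
P098, block B6 in dimension four: a convex smoothing of the identity near zero, constant below `ε`
and equal to the identity above `2ε`.
-/

open intervalIntegral MeasureTheory
open scoped ContDiff

namespace Vale.Agent.P098.Cone.Four

noncomputable section

/-- The slope at scale one. -/
def slope (t : ℝ) : ℝ := Real.smoothTransition (t - 1)

lemma continuous_slope : Continuous slope :=
  Real.smoothTransition.continuous.comp (continuous_id.sub continuous_const)

lemma slope_nonneg (t : ℝ) : 0 ≤ slope t := Real.smoothTransition.nonneg _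

lemma slope_le_one (t : ℝ) : slope t ≤ 1 := Real.smoothTransition.le_one _

lemma slope_one {t : ℝ} (h : 2 ≤ t) : slope t = 1 :=
  Real.smoothTransition.one_of_one_le (by linarith)

lemma monotone_slope : Monotone slope := fun _ _ h =>
  Real.smoothTransition.monotone (by linarith)

/-- The smoothing at scale one. -/
def cut1 (t : ℝ) : ℝ := 2 - ∫ y in t..2, slope y

lemma hasDerivAt_cut1 (t : ℝ) : HasDerivAt cut1 (slope t) t := by
  have h := (intervalIntegral.integral_hasDerivAt_left (continuous_slope.intervalIntegrable t 2)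
    (continuous_slope.stronglyMeasurableAtFilter _ _) continuous_slope.continuousAt).const_sub 2
  rw [neg_neg] at h
  exact h

lemma cut1_eq {t : ℝ} (h : 2 ≤ t) : cut1 t = t := by
  have : ∫ y in t..2, slope y = ∫ _ in t..2, (1 : ℝ) :=
    intervalIntegral.integral_congr fun y hy => slope_one (by
      rw [Set.uIcc_of_ge h] at hy
      exact hy.1)
  rw [cut1, this, intervalIntegral.integral_const, smul_eq_mul, mul_one]
  ring

lemma le_cut1 (t : ℝ) : t ≤ cut1 t := by
  rcases le_total t 2 with h | h
  · have hi : ∫ y in t..2, slope y ≤ ∫ _ in t..2, (1 : ℝ) :=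
      intervalIntegral.integral_mono_on h (continuous_slope.intervalIntegrable _ _)
        intervalIntegrable_const fun y _ => slope_le_one y
    rw [intervalIntegral.integral_const, smul_eq_mul, mul_one] at hi
    unfold cut1
    linarith
  · exact (cut1_eq h).ge

lemma monotone_cut1 : Monotone cut1 :=
  monotone_of_hasDerivAt_nonneg hasDerivAt_cut1 fun t => slope_nonneg t

lemma cut1_pos (t : ℝ) : 0 < cut1 t := by
  rcases le_total 1 t with h | h
  · linarith [le_cut1 t]
  · have hz : ∫ y in t..1, slope y = ∫ _ in t..1, (0 : ℝ) :=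
      intervalIntegral.integral_congr fun y hy => by
        rw [Set.uIcc_of_le h] at hy
        exact Real.smoothTransition.zero_of_nonpos (by linarith [hy.2])
    rw [intervalIntegral.integral_zero] at hz
    have e : cut1 t = cut1 1 := by
      rw [cut1, cut1, ← intervalIntegral.integral_add_adjacent_intervals (b := 1)
        (continuous_slope.intervalIntegrable _ _) (continuous_slope.intervalIntegrable _ _), hz,
        zero_add]
    linarith [le_cut1 1]

/-- The smoothing at scale `ε`. -/
def cut (ε v : ℝ) : ℝ := ε * cut1 (v / ε)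

/-- Its derivative. -/
def cutD (ε v : ℝ) : ℝ := slope (v / ε)

/-- Its second derivative. -/
def cutD2 (ε v : ℝ) : ℝ := deriv slope (v / ε) / ε

variable {ε : ℝ}

lemma hasDerivAt_cut (hε : 0 < ε) (v : ℝ) : HasDerivAt (cut ε) (cutD ε v) v := by
  have h := ((hasDerivAt_cut1 (v / ε)).comp v ((hasDerivAt_id v).div_const ε)).const_mul ε
  refine h.congr_deriv ?_
  rw [cutD]
  field_simp

lemma contDiff_slope {k : ℕ∞} : ContDiff ℝ k slope :=
  Real.smoothTransition.contDiff.comp (contDiff_id.sub contDiff_const)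

lemma hasDerivAt_cutD (v : ℝ) : HasDerivAt (cutD ε) (cutD2 ε v) v := by
  have hd : HasDerivAt slope (deriv slope (v / ε)) (v / ε) :=
    ((contDiff_slope (k := 1)).differentiable one_ne_zero _).hasDerivAt
  have h := hd.comp v ((hasDerivAt_id v).div_const ε)
  exact h.congr_deriv (by rw [cutD2]; ring)

lemma cutD_nonneg (v : ℝ) : 0 ≤ cutD ε v := slope_nonneg _

lemma cutD2_nonneg (hε : 0 < ε) (v : ℝ) : 0 ≤ cutD2 ε v :=
  div_nonneg monotone_slope.deriv_nonneg hε.le

lemma contDiff_cutD {k : ℕ∞} : ContDiff ℝ k (cutD ε) :=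
  contDiff_slope.comp (contDiff_id.div_const ε)

lemma contDiff_cut (hε : 0 < ε) : ContDiff ℝ ∞ (cut ε) := by
  rw [contDiff_infty_iff_deriv, show deriv (cut ε) = cutD ε from
    funext fun v => (hasDerivAt_cut hε v).deriv]
  exact ⟨fun v => (hasDerivAt_cut hε v).differentiableAt, contDiff_cutD⟩

lemma cut_pos (hε : 0 < ε) (v : ℝ) : 0 < cut ε v := mul_pos hε (cut1_pos _)

lemma cut_excess (hε : 0 < ε) {v : ℝ} (hv : 0 ≤ v) :
    0 ≤ cut ε v - v * cutD ε v ∧ cut ε v - v * cutD ε v ≤ 2 * ε := by
  have e : cut ε v - v * cutD ε v = ε * (cut1 (v / ε) - v / ε * slope (v / ε)) := by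
    rw [cut, cutD, mul_sub, ← mul_assoc, mul_div_cancel₀ _ hε.ne']
  rw [e]
  set t := v / ε
  have ht : 0 ≤ t := div_nonneg hv hε.le
  have h1 : t * slope t ≤ cut1 t := (mul_le_of_le_one_right ht (slope_le_one t)).trans (le_cut1 t)
  refine ⟨mul_nonneg hε.le (by linarith), ?_⟩
  rcases le_total t 2 with h | h
  · nlinarith [monotone_cut1 h, cut1_eq (le_refl (2 : ℝ)), mul_nonneg ht (slope_nonneg t)]
  · rw [cut1_eq h, slope_one h]
    linarith [mul_pos two_pos hε]

lemma cutD_eq_one (hε : 0 < ε) {v : ℝ} (hv : 2 * ε ≤ v) : cutD ε v = 1 :=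
  slope_one ((le_div_iff₀ hε).2 hv)

lemma cut_flat (hε : 0 < ε) {v : ℝ} (hv : v ≤ ε) : cut ε v = cut ε 0 ∧ cutD ε v = 0 := by
  have h1 : v / ε ≤ 1 := (div_le_one hε).2 hv
  refine ⟨?_, Real.smoothTransition.zero_of_nonpos (by linarith)⟩
  have e : ∀ t ≤ (1 : ℝ), cut1 t = cut1 1 := fun t ht => by
    have hz : ∫ y in t..1, slope y = ∫ _ in t..1, (0 : ℝ) :=
      intervalIntegral.integral_congr fun y hy => by
        rw [Set.uIcc_of_le ht] at hy
        exact Real.smoothTransition.zero_of_nonpos (by linarith [hy.2])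
    rw [intervalIntegral.integral_zero] at hz
    rw [cut1, cut1, ← intervalIntegral.integral_add_adjacent_intervals (b := 1)
      (continuous_slope.intervalIntegrable _ _) (continuous_slope.intervalIntegrable _ _), hz,
      zero_add]
  rw [cut, cut, zero_div, e _ h1, e 0 zero_le_one]

end

end Vale.Agent.P098.Cone.Four
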