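import Vale.Agent.P098.Regularity.Cone.Root
import Vale.Agent.P098.Regularity.Cone.Four.Cut

/-!
P098, block B6 in dimension four: the regularised test function `Q^(1/3) (1 - 2τ/29)`,
`τ = √6 C₃ / Q^(3/2)`, and its derivatives at eigenvalue arguments.
-/

open Filter
open scoped Topology ContDiff

namespace Vale.Agent.P098.Cone.Four

open Vale.Agent.P098.ReduceN

noncomputable section

/-- The factor in front of `C₃` in `τ`. -/
def rad (Q : ℝ) : ℝ := √6 / (Q * √Q)

/-- The normalised cube. -/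
def tau (Q C : ℝ) : ℝ := rad Q * C

/-- `Q^(-2/3)`. -/
def pw (Q : ℝ) : ℝ := Q ^ (-(2 / 3) : ℝ)

/-- The angular factor, cut off away from the range of `τ`. -/
def ang (t : ℝ) : ℝ := 1 - 2 / 29 * (t * Real.smoothTransition (3 - t ^ 2))

/-- The test function before regularisation. -/
def base (Q C : ℝ) : ℝ := if 0 < Q then Q * pw Q * ang (tau Q C) else 0

/-- Its derivative in `Q` at eigenvalue arguments. -/
def baseQ (Q C : ℝ) : ℝ := pw Q * (1 / 3 + 7 / 87 * tau Q C)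

/-- Its derivative in `C₃` at eigenvalue arguments. -/
def baseC (Q : ℝ) : ℝ := -(2 / 29) * (rad Q * (Q * pw Q))

/-- The fields `T : H` and `T : H²`. -/
def twoFields : Fields := ⟨2, 0, 0, ![0, 1], ![], ![], ![]⟩

/-- The test function. -/
def phi (ε : ℝ) (Q C : ℝ) : ℝ := cut ε (base Q C)

/-- The coefficient of `T : H`. -/
def coef0 (ε : ℝ) (Q C : ℝ) : ℝ := -(cutD ε (base Q C) * baseQ Q C)

/-- The coefficient of `T : H²`. -/
def coef1 (ε : ℝ) (Q C : ℝ) : ℝ := -(3 / 2) * (cutD ε (base Q C) * baseC Q)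

/-- The family. -/
def fourData (ε : ℝ) : Data twoFields (Arg → ℝ) :=
  ⟨fun z => phi ε z.1 z.2.2.2.1,
    ![fun z => coef0 ε z.1 z.2.2.2.1, fun z => coef1 ε z.1 z.2.2.2.1],
    fun j => j.elim0, fun i => i.elim0⟩

lemma ang_bound (t : ℝ) : 25 / 29 ≤ ang t ∧ ang t ≤ 33 / 29 := by
  have h : |t * Real.smoothTransition (3 - t ^ 2)| ≤ 2 := by
    rcases le_total (t ^ 2) 3 with h | h
    · have ht : |t| ≤ 2 := abs_le_of_sq_le_sq (by linarith) two_pos.le
      rw [abs_mul, abs_of_nonneg (Real.smoothTransition.nonneg _)]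
      exact (mul_le_of_le_one_right (abs_nonneg _) (Real.smoothTransition.le_one _)).trans ht
    · rw [Real.smoothTransition.zero_of_nonpos (by linarith), mul_zero, abs_zero]
      exact zero_le_two
  obtain ⟨h1, h2⟩ := abs_le.1 h
  unfold ang
  constructor <;> linarith

lemma pw_pos {Q : ℝ} (hQ : 0 < Q) : 0 < pw Q := Real.rpow_pos_of_pos hQ _

lemma mul_pw {Q : ℝ} (hQ : 0 < Q) : Q * pw Q = Q ^ (1 / 3 : ℝ) := by
  rw [pw, show (1 / 3 : ℝ) = 1 + -(2 / 3) by norm_num, Real.rpow_add hQ, Real.rpow_one]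

lemma base_nonneg (Q C : ℝ) : 0 ≤ base Q C := by
  unfold base
  split_ifs with h
  · exact mul_nonneg (mul_nonneg h.le (pw_pos h).le) (by linarith [(ang_bound (tau Q C)).1])
  · exact le_rfl

lemma base_le (Q C : ℝ) : base Q C ≤ 2 * max Q 0 ^ (1 / 3 : ℝ) := by
  unfold base
  split_ifs with h
  · rw [mul_pw h, max_eq_left h.le]
    nlinarith [(ang_bound (tau Q C)).2, Real.rpow_pos_of_pos h (1 / 3 : ℝ)]
  · exact mul_nonneg zero_le_two (Real.rpow_nonneg (le_max_right _ _) _)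

variable {ε : ℝ}

lemma eventually_small (hε : 0 < ε) {z : Arg} (hz : z.1 ≤ 0) :
    ∀ᶠ w : Arg in 𝓝 z, base w.1 w.2.2.2.1 ≤ ε := by
  have hc : Continuous fun w : Arg => 2 * max w.1 0 ^ (1 / 3 : ℝ) :=
    continuous_const.mul ((continuous_fst.max continuous_const).rpow_const fun _ => Or.inr (by norm_num))
  have h0 : 2 * max z.1 0 ^ (1 / 3 : ℝ) < ε := by
    rw [max_eq_right hz, Real.zero_rpow (by norm_num), mul_zero]
    exact hε
  filter_upwards [(hc.tendsto z).eventually (eventually_le_nhds h0)] with w hw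
  exact (base_le _ _).trans hw

lemma eventually_flat (hε : 0 < ε) {z : Arg} (hz : z.1 ≤ 0) :
    (fourData ε).Φ =ᶠ[𝓝 z] (fun _ => cut ε 0) ∧ ∀ m, (fourData ε).A m =ᶠ[𝓝 z] fun _ => 0 := by
  refine ⟨?_, fun m => ?_⟩
  · filter_upwards [eventually_small hε hz] with w hw
    exact (cut_flat hε hw).1
  · filter_upwards [eventually_small hε hz] with w hw
    fin_cases m
    · show coef0 ε w.1 w.2.2.2.1 = 0
      rw [coef0, (cut_flat hε hw).2, zero_mul, neg_zero]
    · show coef1 ε w.1 w.2.2.2.1 = 0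
      rw [coef1, (cut_flat hε hw).2, zero_mul, mul_zero]

lemma contDiff_fourData (hε : 0 < ε) :
    ContDiff ℝ 2 (fourData ε).Φ ∧ ∀ m, ContDiff ℝ 2 ((fourData ε).A m) := by
  have smooth : ∀ z : Arg, 0 < z.1 →
      ContDiffAt ℝ 2 (fun w : Arg => base w.1 w.2.2.2.1) z ∧
        ContDiffAt ℝ 2 (fun w : Arg => baseQ w.1 w.2.2.2.1) z ∧
          ContDiffAt ℝ 2 (fun w : Arg => baseC w.1) z := by
    intro z hz
    have h1 : ContDiffAt ℝ 2 (fun w : Arg => w.1) z := contDiff_fst.contDiffAt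
    have h2 : ContDiffAt ℝ 2 (fun w : Arg => w.2.2.2.1) z :=
      (contDiff_fst.comp (contDiff_snd.comp (contDiff_snd.comp contDiff_snd))).contDiffAt
    have hp : ContDiffAt ℝ 2 (fun w : Arg => pw w.1) z := h1.rpow_const_of_ne hz.ne'
    have hr : ContDiffAt ℝ 2 (fun w : Arg => rad w.1) z :=
      contDiffAt_const.div (h1.mul (h1.sqrt hz.ne')) (mul_pos hz (Real.sqrt_pos.2 hz)).ne'
    have ht : ContDiffAt ℝ 2 (fun w : Arg => tau w.1 w.2.2.2.1) z := hr.mul h2
    refine ⟨?_, hp.mul (contDiffAt_const.add (contDiffAt_const.mul ht)),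
      contDiffAt_const.mul (hr.mul (h1.mul hp))⟩
    have he : (fun w : Arg => base w.1 w.2.2.2.1) =ᶠ[𝓝 z]
        fun w => w.1 * pw w.1 * ang (tau w.1 w.2.2.2.1) := by
      filter_upwards [(continuous_fst.tendsto z).eventually (eventually_gt_nhds hz)] with w hw
      exact if_pos hw
    refine ((h1.mul hp).mul ?_).congr_of_eventuallyEq he
    exact contDiffAt_const.sub (contDiffAt_const.mul (ht.mul
      (Real.smoothTransition.contDiffAt.comp z (contDiffAt_const.sub (ht.pow 2)))))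
  refine ⟨contDiff_iff_contDiffAt.2 fun z => ?_, fun m => contDiff_iff_contDiffAt.2 fun z => ?_⟩
  · rcases le_or_gt z.1 0 with hz | hz
    · exact contDiffAt_const.congr_of_eventuallyEq (eventually_flat hε hz).1
    · exact ((contDiff_cut hε).of_le (WithTop.coe_le_coe.2 le_top)).contDiffAt.comp z (smooth z hz).1
  · rcases le_or_gt z.1 0 with hz | hz
    · exact contDiffAt_const.congr_of_eventuallyEq ((eventually_flat hε hz).2 m)
    · have hD := (contDiff_cutD (ε := ε) (k := 2)).contDiffAt.comp z (smooth z hz).1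
      fin_cases m
      · exact (hD.mul (smooth z hz).2.1).neg
      · exact contDiffAt_const.mul (hD.mul (smooth z hz).2.2)

lemma hasDerivAt_pw {Q : ℝ} (hQ : 0 < Q) : HasDerivAt pw (-(2 / 3) * (pw Q / Q)) Q := by
  refine (Real.hasDerivAt_rpow_const (Or.inl hQ.ne')).congr_deriv ?_
  rw [pw, Real.rpow_sub_one hQ.ne']

lemma hasDerivAt_rad {Q : ℝ} (hQ : 0 < Q) : HasDerivAt rad (-(3 / 2) * (rad Q / Q)) Q := by
  have hs := Real.sqrt_pos.2 hQ
  have h := (hasDerivAt_const Q (√6)).div ((hasDerivAt_id Q).mul (Real.hasDerivAt_sqrt hQ.ne'))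
    (mul_pos hQ hs).ne'
  refine h.congr_deriv ?_
  have h2 : √Q ^ 2 = Q := Real.sq_sqrt hQ.le
  simp only [Pi.mul_apply, id, rad]
  field_simp
  rw [h2]
  ring

lemma tau_sq_le {Q C : ℝ} (hQ : 0 < Q) (h : 6 * C ^ 2 ≤ Q ^ 3) : tau Q C ^ 2 ≤ 1 := by
  have hs := Real.sqrt_pos.2 hQ
  rw [tau, rad, mul_pow, div_pow, mul_pow, Real.sq_sqrt (by norm_num : (0 : ℝ) ≤ 6),
    Real.sq_sqrt hQ.le, div_mul_eq_mul_div, div_le_one (by positivity)]
  linarith

lemma base_eq {Q C : ℝ} (hQ : 0 < Q) (ht : tau Q C ^ 2 ≤ 2) :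
    base Q C = Q * pw Q * (1 - 2 / 29 * tau Q C) := by
  rw [base, if_pos hQ, ang, Real.smoothTransition.one_of_one_le (by linarith), mul_one]

lemma base_derivs {Q C : ℝ} (hQ : 0 < Q) (h : 6 * C ^ 2 ≤ Q ^ 3) :
    HasDerivAt (fun t => base t C) (baseQ Q C) Q ∧ HasDerivAt (base Q) (baseC Q) C := by
  have ht := tau_sq_le hQ h
  constructor
  · have hd : HasDerivAt (fun t => t * pw t * (1 - 2 / 29 * (rad t * C))) _ Q :=
      ((hasDerivAt_id' Q).mul (hasDerivAt_pw hQ)).mul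
        ((((hasDerivAt_rad hQ).mul_const C).const_mul (2 / 29)).const_sub 1)
    have hev : ∀ᶠ t in 𝓝 Q, tau t C ^ 2 < 2 :=
      ((((hasDerivAt_rad hQ).continuousAt.mul continuousAt_const).pow 2).tendsto).eventually
        (eventually_lt_nhds (show tau Q C ^ 2 < 2 by linarith))
    refine (hd.congr_of_eventuallyEq ?_).congr_deriv ?_
    · filter_upwards [hev, eventually_gt_nhds hQ] with t h1 h2
      rw [base_eq h2 h1.le, tau]
    · simp only [baseQ, tau, Pi.mul_apply]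
      field_simp
      ring
  · have hd : HasDerivAt (fun t => Q * pw Q * (1 - 2 / 29 * (rad Q * t))) _ C :=
      ((((hasDerivAt_id' C).const_mul (rad Q)).const_mul (2 / 29)).const_sub 1).const_mul (Q * pw Q)
    have hev : ∀ᶠ t in 𝓝 C, tau Q t ^ 2 < 2 :=
      (((continuous_const.mul continuous_id).pow 2).tendsto C).eventually
        (eventually_lt_nhds (show tau Q C ^ 2 < 2 by linarith))
    refine (hd.congr_of_eventuallyEq ?_).congr_deriv ?_
    · filter_upwards [hev] with t h1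
      rw [base_eq hQ h1.le, tau]
    · unfold baseC
      ring

/-- The jets of the family at eigenvalue arguments. -/
lemma jets_four (hε : 0 < ε) {z : Arg} (hQ : 0 < z.1) (h : 6 * z.2.2.2.1 ^ 2 ≤ z.1 ^ 3) :
    let Q := z.1
    let C := z.2.2.2.1
    let g₁ := cutD ε (base Q C)
    let g₂ := cutD2 ε (base Q C)
    let qq := pw Q / Q * (-(2 / 9) - 91 / 522 * tau Q C)
    let qc := 7 / 87 * (rad Q * pw Q)
    jet1Of (fourData ε).Φ z = (cut ε (base Q C), g₁ * baseQ Q C, 0, 0, g₁ * baseC Q, 0) ∧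
      jet1Of ((fourData ε).A ⟨0, Nat.zero_lt_two⟩) z = (-(g₁ * baseQ Q C),
        -(g₂ * baseQ Q C ^ 2 + g₁ * qq), 0, 0, -(g₂ * baseC Q * baseQ Q C + g₁ * qc), 0) ∧
      jet1Of ((fourData ε).A ⟨1, Nat.one_lt_two⟩) z = (-(3 / 2) * (g₁ * baseC Q),
        -(3 / 2) * (g₂ * baseQ Q C * baseC Q + g₁ * qc), 0, 0,
        -(3 / 2) * (g₂ * baseC Q ^ 2), 0) := by
  obtain ⟨hΦ, hA⟩ := contDiff_fourData hε
  set Q := z.1
  set C := z.2.2.2.1
  obtain ⟨dQ, dC⟩ := base_derivs hQ h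
  have dQQ : HasDerivAt (fun t => baseQ t C)
      (pw Q / Q * (-(2 / 9) - 91 / 522 * tau Q C)) Q := by
    refine ((hasDerivAt_pw hQ).mul
      ((((hasDerivAt_rad hQ).mul_const C).const_mul (7 / 87)).const_add (1 / 3))).congr_deriv ?_
    simp only [tau]
    ring
  have dQC : HasDerivAt (baseQ Q) (7 / 87 * (rad Q * pw Q)) C := by
    refine (((((hasDerivAt_id' C).const_mul (rad Q)).const_mul (7 / 87)).const_add
      (1 / 3)).const_mul (pw Q)).congr_deriv ?_
    ring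
  have dCQ : HasDerivAt baseC (7 / 87 * (rad Q * pw Q)) Q := by
    refine (((hasDerivAt_rad hQ).mul ((hasDerivAt_id' Q).mul (hasDerivAt_pw hQ))).const_mul
      (-(2 / 29))).congr_deriv ?_
    simp only [Pi.mul_apply]
    field_simp
    ring
  have cD := hasDerivAt_cutD (ε := ε) (base Q C)
  have c1 := hasDerivAt_cut hε (base Q C)
  have cQ : HasDerivAt (fun t => cutD ε (base t C)) (cutD2 ε (base Q C) * baseQ Q C) Q :=
    HasDerivAt.comp (h₂ := cutD ε) (h := fun t => base t C) Q cD dQ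
  have cC : HasDerivAt (fun t => cutD ε (base Q t)) (cutD2 ε (base Q C) * baseC Q) C :=
    HasDerivAt.comp (h₂ := cutD ε) (h := fun t => base Q t) C cD dC
  refine ⟨?_, ?_, ?_⟩
  · exact jet1Of_two (f := phi ε) (hΦ.differentiable two_ne_zero z) (c1.comp Q dQ) (c1.comp C dC)
  · have e1 : HasDerivAt (fun t => coef0 ε t C) _ Q := (cQ.mul dQQ).neg
    have e2 : HasDerivAt (coef0 ε Q) _ C := (cC.mul dQC).neg
    refine jet1Of_two (f := coef0 ε) ((hA ⟨0, Nat.zero_lt_two⟩).differentiable two_ne_zero z)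
      (e1.congr_deriv ?_) (e2.congr_deriv ?_)
    · ring
    · ring
  · have e1 : HasDerivAt (fun t => coef1 ε t C) _ Q :=
      (cQ.mul dCQ).const_mul (-(3 / 2))
    have e2 : HasDerivAt (coef1 ε Q) _ C :=
      (cC.mul_const (baseC Q)).const_mul (-(3 / 2))
    refine jet1Of_two (f := coef1 ε) ((hA ⟨1, Nat.one_lt_two⟩).differentiable two_ne_zero z)
      (e1.congr_deriv ?_) (e2.congr_deriv ?_)
    · ring
    · ring

/-- The jets where `Q ≤ 0`. -/
lemma jets_flat (hε : 0 < ε) {z : Arg} (hz : z.1 ≤ 0) :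
    jet1Of (fourData ε).Φ z = (cut ε 0, 0, 0, 0, 0, 0) ∧
      ∀ m, jet1Of ((fourData ε).A m) z = 0 := by
  obtain ⟨hΦ, hA⟩ := eventually_flat hε hz
  refine ⟨?_, fun m => ?_⟩
  · simp [jet1Of, hΦ.fderiv_eq, hΦ.eq_of_nhds]
  · simp [jet1Of, (hA m).fderiv_eq, (hA m).eq_of_nhds]

end

end Vale.Agent.P098.Cone.Four
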