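import Vale.Agent.P098.Regularity.Cone.Four.Poly
import Vale.Agent.P098.Regularity.Cone.Four.Jet

/-!
P098, block B6 in dimension four: the inequality of each block with a nonnegative excess, and the
inequality on the free boundary, for the regularised test function.
-/

open Matrix

namespace Vale.Agent.P098.Cone.Four

open Vale.Agent.P098.ReduceN
open Vale.Agent.P098.Reduce (hsum)

noncomputable section

lemma sum_two_A (f : Fin twoFields.M → ℝ) :
    ∑ m, f m = f ⟨0, Nat.zero_lt_two⟩ + f ⟨1, Nat.one_lt_two⟩ :=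
  Fin.sum_univ_two f

lemma sum_two_B (f : Fin twoFields.J → ℝ) : ∑ j, f j = 0 := Fin.sum_univ_zero f

/-- The two other indices. -/
lemma others (c : Fin 3) : ∃ i j : Fin 3, i ≠ c ∧ j ≠ c ∧
    ∀ f : Fin 3 → ℝ, ∑ k, f k = f c + f i + f j := by
  fin_cases c
  · exact ⟨1, 2, by decide, by decide, fun f => Fin.sum_univ_three f⟩
  · exact ⟨0, 2, by decide, by decide, fun f => (Fin.sum_univ_three f).trans (by simp; ring)⟩
  · exact ⟨0, 1, by decide, by decide, fun f => (Fin.sum_univ_three f).trans (by simp; ring)⟩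

/-- Three numbers with sum zero through a scale, one of them and a gap. -/
lemma param {L : Fin 3 → ℝ} (hL : ∑ i, L i = 0) (hQ : 0 < psum L 2) (c i j : Fin 3)
    (h : ∀ f : Fin 3 → ℝ, ∑ k, f k = f c + f i + f j) :
    ∃ σ ν d : ℝ, 0 < σ ∧ d ^ 2 = 12 - 3 * ν ^ 2 ∧ L c = σ * ν ∧ L i = σ * ((-ν + d) / 2) ∧
      L j = σ * ((-ν - d) / 2) ∧ psum L 2 = 6 * σ ^ 2 ∧
      psum L 3 = 6 * σ ^ 3 * (ν * (ν ^ 2 - 3) / 2) ∧ psum L 4 = 18 * σ ^ 4 := by
  have hs : 0 < √(psum L 2 / 6) := Real.sqrt_pos.2 (by linarith)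
  set σ := √(psum L 2 / 6) with hσ
  have hσ2 : σ ^ 2 = psum L 2 / 6 := Real.sq_sqrt (by linarith)
  rw [h] at hL
  refine ⟨σ, L c / σ, (L i - L j) / σ, hs, ?_, by field_simp, ?_, ?_, by linarith, ?_, ?_⟩
  all_goals
    have e2 : psum L 2 = L c ^ 2 + L i ^ 2 + L j ^ 2 := h _
    have hc : L c = -(L i + L j) := by linarith
    rw [e2, hc] at hσ2
  · rw [hc]
    field_simp
    linear_combination (-12 : ℝ) * hσ2
  · rw [hc]; field_simp; ring
  · rw [hc]; field_simp; ring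
  · rw [show psum L 3 = L c ^ 3 + L i ^ 3 + L j ^ 3 from h _, hc]
    field_simp
    linear_combination (-18 : ℝ) * (L i + L j) * hσ2
  · rw [show psum L 4 = L c ^ 4 + L i ^ 4 + L j ^ 4 from h _, hc]
    field_simp
    linear_combination (-18 * σ ^ 2 - 3 * ((L i + L j) ^ 2 + L i ^ 2 + L j ^ 2)) * hσ2

/-- The values of the normalised quantities. -/
lemma values {σ τ : ℝ} (hσ : 0 < σ) :
    rad (6 * σ ^ 2) = 1 / (6 * σ ^ 3) ∧ tau (6 * σ ^ 2) (6 * σ ^ 3 * τ) = τ := by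
  have h : rad (6 * σ ^ 2) = 1 / (6 * σ ^ 3) := by
    rw [rad, Real.sqrt_mul (by norm_num : (0 : ℝ) ≤ 6), Real.sqrt_sq hσ.le]
    field_simp
  refine ⟨h, ?_⟩
  rw [tau, h]
  field_simp

/-- The cube is controlled by the square. -/
lemma cube_sq_le {L : Fin 3 → ℝ} (hL : ∑ i, L i = 0) : 6 * psum L 3 ^ 2 ≤ psum L 2 ^ 3 := by
  simp only [psum, Fin.sum_univ_three] at hL ⊢
  rw [show L 2 = -(L 0 + L 1) by linarith]
  nlinarith [sq_nonneg ((L 0 - L 1) * (2 * L 0 + L 1) * (L 0 + 2 * L 1))]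

/-- The weight of the excess. -/
def excess (Q : ℝ) : ℝ := Q / (1 + |Q| ^ 5) / 10

lemma continuous_excess : Continuous excess :=
  (continuous_id.div (continuous_const.add (continuous_abs.pow 5))
    fun Q => (by positivity : (0 : ℝ) < 1 + |Q| ^ 5).ne').div_const 10

lemma excess_nonneg {Q : ℝ} (hQ : 0 ≤ Q) : 0 ≤ excess Q := by
  unfold excess
  positivity

lemma excess_le {Q : ℝ} (hQ : 0 < Q) : 10 * excess Q * Q ^ 3 ≤ pw Q := by
  have e : pw Q = (Q ^ (2 / 3 : ℝ))⁻¹ := by rw [pw, Real.rpow_neg hQ.le]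
  rw [e, excess, abs_of_pos hQ,
    show 10 * (Q / (1 + Q ^ 5) / 10) * Q ^ 3 = Q ^ 4 / (1 + Q ^ 5) by ring, inv_eq_one_div,
    div_le_div_iff₀ (by positivity) (by positivity), one_mul, ← Real.rpow_natCast Q 4,
    ← Real.rpow_add hQ]
  rcases le_total Q 1 with h | h
  · exact (Real.rpow_le_one hQ.le h (by norm_num)).trans (le_add_of_nonneg_right (by positivity))
  · refine le_trans ?_ (le_add_of_nonneg_left zero_le_one)
    rw [← Real.rpow_natCast Q 5]
    exact Real.rpow_le_rpow_of_exponent_le h (by norm_num)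

/-- The normalised block is a multiple of the polynomial form. -/
lemma core_form {σ ν d a b P τ B₀ B₁ w₁ w₂ M : ℝ} (hσ : 0 < σ) (hP : 0 < P) (hM : 0 < M)
    (hτ : τ = ν * (ν ^ 2 - 3) / 2) (hMe : M = 1 - 2 / 29 * τ)
    (h0 : B₀ = P * (1 / 3 + 7 / 87 * τ)) (h1 : B₁ = -(2 / 29) * (P / σ))
    (hw1 : w₁ = σ * (-3 * ν * a + d * b))
    (hw2 : w₂ = σ ^ 2 * ((6 - 3 * ν ^ 2) * a - ν * d * b)) :
    (2 * B₀ * w₁ + 3 * B₁ * w₂) ^ 2 / (4 * (6 * σ ^ 2 * P * M)) -
        (2 * (P / (6 * σ ^ 2) * (-(2 / 9) - 91 / 522 * τ)) * w₁ ^ 2 +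
          6 * (7 / 87 * (1 / (6 * σ ^ 3) * P)) * w₁ * w₂) +
        (-B₀ * ((-2 * a) ^ 2 + 3 * (a + b) ^ 2 + 3 * (a - b) ^ 2) -
          3 / 2 * B₁ * (2 * (σ * ν) * (-2 * a) ^ 2 +
            (4 * (σ * ((-ν + d) / 2)) + 2 * (σ * ν)) * (a + b) ^ 2 +
            (4 * (σ * ((-ν - d) / 2)) + 2 * (σ * ν)) * (a - b) ^ 2)) +
        1 / 1000 * P * (4 - ν ^ 2) ^ 2 * (-3 * ν * a + d * b) ^ 2 =
      P / (24 * M) * form ν d a b := by
  subst h0 h1 hw1 hw2 hτ
  simp only [form]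
  rw [← hMe]
  field_simp
  rw [hMe]
  ring

/-- The block of the test function before regularisation, with the first variable optimised. -/
def coreVal (L u : Fin 3 → ℝ) (c i j : Fin 3) : ℝ :=
  let Q := psum L 2
  let C := psum L 3
  (2 * baseQ Q C * usum L u 1 + 3 * baseC Q * usum L u 2) ^ 2 / (4 * base Q C) -
      (2 * (pw Q / Q * (-(2 / 9) - 91 / 522 * tau Q C)) * usum L u 1 ^ 2 +
        6 * (7 / 87 * (rad Q * pw Q)) * usum L u 1 * usum L u 2) +
    (-baseQ Q C * (u c ^ 2 + 3 * u i ^ 2 + 3 * u j ^ 2) -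
      3 / 2 * baseC Q * (2 * L c * u c ^ 2 + (4 * L i + 2 * L c) * u i ^ 2 +
        (4 * L j + 2 * L c) * u j ^ 2))

/-- The value of the test function before regularisation is positive. -/
lemma base_pos {Q : ℝ} (hQ : 0 < Q) (C : ℝ) : 0 < base Q C := by
  rw [base, if_pos hQ]
  exact mul_pos (mul_pos hQ (pw_pos hQ)) (by linarith [(ang_bound (tau Q C)).1])

lemma core_le {L : Fin 3 → ℝ} (hL : ∑ i, L i = 0) (hQ : 0 < psum L 2) {c i j : Fin 3}
    {u : Fin 3 → ℝ} (hu : ∑ i, u i = 0) (hsm : ∀ f : Fin 3 → ℝ, ∑ k, f k = f c + f i + f j) :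
    coreVal L u c i j ≤
      -(excess (psum L 2) * ((2 / 3 * psum L 2 - L c ^ 2) * usum L u 1) ^ 2) := by
  obtain ⟨σ, ν, d, hσ, hd, ec, ei, ej, e2, e3, -⟩ := param hL hQ c i j hsm
  obtain ⟨ers, ets⟩ := values (τ := ν * (ν ^ 2 - 3) / 2) hσ
  obtain ⟨a, b, uc, ui, uj⟩ : ∃ a b, u c = -2 * a ∧ u i = a + b ∧ u j = a - b := by
    rw [hsm] at hu
    exact ⟨-(u c) / 2, (u i - u j) / 2, by ring, by linarith, by linarith⟩
  have w1 : usum L u 1 = σ * (-3 * ν * a + d * b) := by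
    rw [usum, hsm, ec, ei, ej, uc, ui, uj]; ring
  have w2 : usum L u 2 = σ ^ 2 * ((6 - 3 * ν ^ 2) * a - ν * d * b) := by
    rw [usum, hsm, ec, ei, ej, uc, ui, uj]; linear_combination (σ ^ 2 * a / 2) * hd
  have t0 : tau (psum L 2) (psum L 3) = ν * (ν ^ 2 - 3) / 2 := by rw [e2, e3, ets]
  have r0 : rad (psum L 2) = 1 / (6 * σ ^ 3) := by rw [e2, ers]
  have ht := tau_sq_le hQ (cube_sq_le hL)
  rw [t0] at ht
  have hM : 0 < 1 - 2 / 29 * (ν * (ν ^ 2 - 3) / 2) := by nlinarith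
  have hP := pw_pos hQ
  have hv : base (psum L 2) (psum L 3) =
      6 * σ ^ 2 * pw (psum L 2) * (1 - 2 / 29 * (ν * (ν ^ 2 - 3) / 2)) := by
    rw [base_eq hQ ((tau_sq_le hQ (cube_sq_le hL)).trans one_le_two), t0]
    generalize pw (psum L 2) = P₀
    rw [e2]
  have b0 : baseQ (psum L 2) (psum L 3) =
      pw (psum L 2) * (1 / 3 + 7 / 87 * (ν * (ν ^ 2 - 3) / 2)) := by rw [baseQ, t0]
  have b1 : baseC (psum L 2) = -(2 / 29) * (pw (psum L 2) / σ) := by
    rw [baseC, r0]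
    generalize pw (psum L 2) = P₀
    rw [e2]
    field_simp
  have h2 : ((2 / 3 * psum L 2 - L c ^ 2) * usum L u 1) ^ 2 =
      psum L 2 ^ 3 / 216 * ((4 - ν ^ 2) ^ 2 * (-3 * ν * a + d * b) ^ 2) := by
    rw [w1, ec, e2]; ring
  have h3 : excess (psum L 2) * (psum L 2 ^ 3 / 216) ≤ 1 / 1000 * pw (psum L 2) := by
    have h4 := excess_le hQ
    have h5 : 0 ≤ excess (psum L 2) * psum L 2 ^ 3 :=
      mul_nonneg (excess_nonneg hQ.le) (by positivity)
    linarith
  have e := core_form hσ hP hM rfl rfl b0 b1 w1 w2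
  have h1 : pw (psum L 2) / (24 * (1 - 2 / 29 * (ν * (ν ^ 2 - 3) / 2))) * form ν d a b ≤ 0 :=
    mul_nonpos_of_nonneg_of_nonpos (by positivity) (form_le hd a b)
  have hc : coreVal L u c i j + 1 / 1000 * pw (psum L 2) * (4 - ν ^ 2) ^ 2 *
      (-3 * ν * a + d * b) ^ 2 ≤ 0 := by
    refine le_trans (le_of_eq (Eq.trans ?_ e)) h1
    simp only [coreVal]
    rw [hv, t0, r0, uc, ui, uj, ec, ei, ej]
    generalize pw (psum L 2) = P₀
    rw [e2]
  rw [h2]
  have h6 := mul_le_mul_of_nonneg_right h3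
    (mul_nonneg (sq_nonneg (4 - ν ^ 2)) (sq_nonneg (-3 * ν * a + d * b)))
  linarith

variable {ε : ℝ}

/-- One block with its excess. -/
theorem block_four (hε : 0 < ε) {L : Fin 3 → ℝ} (hL : ∑ i, L i = 0) (s P q y : ℝ) (c : Fin 3)
    {u : Fin 3 → ℝ} (hu : ∑ i, u i = 0) :
    block (coefsOf (fourData ε) (psum L 2, s, P, psum L 3, psum L 4)) L c u y q ≤
      -(cutD ε (base (psum L 2) (psum L 3)) * excess (psum L 2) *
        ((2 / 3 * psum L 2 - L c ^ 2) * usum L u 1) ^ 2) := by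
  set z : Arg := (psum L 2, s, P, psum L 3, psum L 4) with hz
  rcases (show 0 ≤ psum L 2 from Finset.sum_nonneg fun i _ => sq_nonneg _).eq_or_lt with h0 | hQ
  · obtain ⟨jΦ, jA⟩ := jets_flat hε (z := z) h0.ge
    have e : excess (psum L 2) = 0 := by rw [← h0]; simp [excess]
    rw [e]
    simp only [block, kernAt, kern, diagWeight, sum_two_A, sum_two_B,
      sum_none (σ := twoFields) rfl, coefsOf, Data.map, jΦ, jA]
    simp [dCoef]
    exact mul_nonneg (sq_nonneg y) (cut_pos hε 0).le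
  obtain ⟨i, j, hi, hj, hsm⟩ := others c
  obtain ⟨jΦ, jA0, jA1⟩ := jets_four hε (z := z) hQ (cube_sq_le hL)
  have hb : ∀ G g₁ g₂ B0 B1 qq qc : ℝ,
      jet1Of (fourData ε).Φ z = (G, g₁ * B0, 0, 0, g₁ * B1, 0) →
      jet1Of ((fourData ε).A ⟨0, Nat.zero_lt_two⟩) z =
        (-(g₁ * B0), -(g₂ * B0 ^ 2 + g₁ * qq), 0, 0, -(g₂ * B1 * B0 + g₁ * qc), 0) →
      jet1Of ((fourData ε).A ⟨1, Nat.one_lt_two⟩) z = (-(3 / 2) * (g₁ * B1),
        -(3 / 2) * (g₂ * B0 * B1 + g₁ * qc), 0, 0, -(3 / 2) * (g₂ * B1 ^ 2), 0) →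
      block (coefsOf (fourData ε) z) L c u y q =
        y * (g₁ * (2 * B0 * usum L u 1 + 3 * B1 * usum L u 2)) - y ^ 2 * G -
          g₂ / 2 * (2 * B0 * usum L u 1 + 3 * B1 * usum L u 2) ^ 2 -
          g₁ * (2 * qq * usum L u 1 ^ 2 + 6 * qc * usum L u 1 * usum L u 2) +
          g₁ * (-B0 * (u c ^ 2 + 3 * u i ^ 2 + 3 * u j ^ 2) - 3 / 2 * B1 * (2 * L c * u c ^ 2 +
            (4 * L i + 2 * L c) * u i ^ 2 + (4 * L j + 2 * L c) * u j ^ 2)) := by
    intro G g₁ g₂ B0 B1 qq qc k1 k2 k3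
    rw [block, hsm fun k => diagWeight (kernAt (coefsOf (fourData ε) z) L) c k * u k ^ 2]
    simp only [diagWeight, if_pos, if_neg hi, if_neg hj, kernAt, kern, sum_two_A, sum_two_B,
      sum_none (σ := twoFields) rfl, coefsOf, Data.map, k1, k2, k3, dCoef]
    simp [twoFields, hsum]
    ring
  rw [hb _ _ _ _ _ _ _ jΦ jA0 jA1]
  have hv0 := base_pos hQ (psum L 3)
  have hex := (cut_excess hε hv0.le).1
  have hcore := mul_le_mul_of_nonneg_left (core_le hL hQ hu hsm)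
    (cutD_nonneg (ε := ε) (base (psum L 2) (psum L 3)))
  simp only [coreVal] at hcore
  have hy : ∀ G g₁ v₀ d₀ : ℝ, 0 < G → 0 ≤ g₁ → 0 < v₀ → 0 ≤ G - v₀ * g₁ →
      y * (g₁ * d₀) - y ^ 2 * G ≤ g₁ * (d₀ ^ 2 / (4 * v₀)) := by
    intro G g₁ v₀ d₀ hG hg1 hv hx
    have h1 : y * (g₁ * d₀) - y ^ 2 * G ≤ (g₁ * d₀) ^ 2 / (4 * G) := by
      rw [le_div_iff₀ (by positivity)]
      nlinarith [sq_nonneg (2 * y * G - g₁ * d₀)]
    refine h1.trans ?_
    rw [mul_pow, div_le_iff₀ (by positivity), show g₁ * (d₀ ^ 2 / (4 * v₀)) * (4 * G) =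
      g₁ * d₀ ^ 2 * (G / v₀) by field_simp]
    calc g₁ ^ 2 * d₀ ^ 2 = g₁ * d₀ ^ 2 * g₁ := by ring
      _ ≤ g₁ * d₀ ^ 2 * (G / v₀) := mul_le_mul_of_nonneg_left
          ((le_div_iff₀ hv).2 (by linarith)) (mul_nonneg hg1 (sq_nonneg _))
  have h8 := hy _ _ _ (2 * baseQ (psum L 2) (psum L 3) * usum L u 1 +
    3 * baseC (psum L 2) * usum L u 2) (cut_pos hε (base (psum L 2) (psum L 3)))
    (cutD_nonneg _) hv0 hex
  linarith [mul_nonneg (cutD2_nonneg hε (base (psum L 2) (psum L 3)))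
    (sq_nonneg (2 * baseQ (psum L 2) (psum L 3) * usum L u 1 + 3 * baseC (psum L 2) * usum L u 2))]

/-- The part without third derivatives. -/
theorem const_four (hε : 0 < ε) {L : Fin 3 → ℝ} (hL : ∑ i, L i = 0) (s P : ℝ) :
    constPart (coefsOf (fourData ε) (psum L 2, s, P, psum L 3, psum L 4)) L s ≤ 2 * ε := by
  set z : Arg := (psum L 2, s, P, psum L 3, psum L 4) with hz
  rcases (show 0 ≤ psum L 2 from Finset.sum_nonneg fun i _ => sq_nonneg _).eq_or_lt with h0 | hQ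
  · obtain ⟨jΦ, jA⟩ := jets_flat hε (z := z) h0.ge
    simp only [constPart, sum_two_A, sum_two_B, sum_none (σ := twoFields) rfl, coefsOf, Data.map,
      jΦ, jA]
    have := (cut_excess hε (le_refl (0 : ℝ))).2
    norm_num at this ⊢
    linarith
  · obtain ⟨jΦ, jA0, jA1⟩ := jets_four hε (z := z) hQ (cube_sq_le hL)
    simp only [constPart, sum_two_A, sum_two_B, sum_none (σ := twoFields) rfl, coefsOf, Data.map,
      jΦ, jA0, jA1]
    simp [twoFields, z]
    have hv := (cut_excess hε (base_nonneg (psum L 2) (psum L 3))).2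
    have e : 3 * baseQ (psum L 2) (psum L 3) * psum L 2 + 9 / 2 * baseC (psum L 2) * psum L 3 =
        base (psum L 2) (psum L 3) := by
      rw [base_eq hQ ((tau_sq_le hQ (cube_sq_le hL)).trans one_le_two), baseQ, baseC, tau]
      ring
    linear_combination hv - cutD ε (base (psum L 2) (psum L 3)) * e

/-- The test function is nonnegative and the weights of distinct triples are nonpositive. -/
theorem triple_four (hε : 0 < ε) {L : Fin 3 → ℝ} (hL : ∑ i, L i = 0) (s P : ℝ) :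
    0 ≤ (coefsOf (fourData ε) (psum L 2, s, P, psum L 3, psum L 4)).Φ.1 ∧
      ∀ a i l, a ≠ i → a ≠ l → i ≠ l → tripleWeight
        (kernAt (coefsOf (fourData ε) (psum L 2, s, P, psum L 3, psum L 4)) L) a i l ≤ 0 := by
  set z : Arg := (psum L 2, s, P, psum L 3, psum L 4) with hz
  refine ⟨(cut_pos hε _).le, fun a i l hai hal hil => ?_⟩
  rcases (show 0 ≤ psum L 2 from Finset.sum_nonneg fun i _ => sq_nonneg _).eq_or_lt with h0 | hQ
  · obtain ⟨-, jA⟩ := jets_flat hε (z := z) h0.ge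
    simp [tripleWeight, kernAt, kern, sum_two_A, sum_none (σ := twoFields) rfl, coefsOf, Data.map, jA]
  · obtain ⟨-, jA0, jA1⟩ := jets_four hε (z := z) hQ (cube_sq_le hL)
    have hs : L a + L i + L l = 0 := by
      simp only [Fin.sum_univ_three] at hL
      fin_cases a <;> fin_cases i <;> fin_cases l <;> simp_all <;> linarith
    have hB : 0 ≤ baseQ (psum L 2) (psum L 3) := by
      have := tau_sq_le hQ (cube_sq_le hL)
      exact mul_nonneg (pw_pos hQ).le (by nlinarith)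
    simp only [tripleWeight, kernAt, kern, sum_two_A, sum_none (σ := twoFields) rfl, coefsOf,
      Data.map, jA0, jA1]
    simp [twoFields, hsum, z]
    have h := mul_nonneg (cutD_nonneg (ε := ε) (base (psum L 2) (psum L 3))) hB
    linear_combination 6 * h + (-6 * cutD ε (base (psum L 2) (psum L 3)) * baseC (psum L 2)) * hs

/-- The inequality on the free boundary. -/
theorem boundary_four (hε : 0 < ε) : BoundaryIneq 3 twoFields (fourData ε) 0 := by
  intro L hL c hc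
  simp only [sum_two_A, sum_two_B, sum_none (σ := twoFields) rfl]
  show phi ε (psum L 2) (psum L 3) * L c +
    (coef0 ε (psum L 2) (psum L 3) * fluxTrace L c 1 +
      coef1 ε (psum L 2) (psum L 3) * fluxTrace L c 2) + 0 + 0 ≤ 0
  rcases (show 0 ≤ psum L 2 from Finset.sum_nonneg fun i _ => sq_nonneg _).eq_or_lt with h0 | hQ
  · have h : L c = 0 := by
      have := Finset.single_le_sum (f := fun i => L i ^ 2) (fun i _ => sq_nonneg _) (Finset.mem_univ c)
      rw [← psum, ← h0] at this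
      exact pow_eq_zero_iff two_ne_zero |>.1 (le_antisymm this (sq_nonneg _))
    obtain ⟨-, h1⟩ := cut_flat hε (v := base (psum L 2) (psum L 3))
      ((base_le _ _).trans (by rw [← h0]; simp [hε.le]))
    simp [coef0, coef1, h1, h]
  obtain ⟨i, j, -, -, hsm⟩ := others c
  obtain ⟨σ, ν, d, hσ, hd, ec, -, -, e2, e3, e4⟩ := param hL hQ c i j hsm
  obtain ⟨ers, ets⟩ := values (τ := ν * (ν ^ 2 - 3) / 2) hσ
  have hν2 : ν ≤ 0 := by rw [ec] at hc; nlinarith
  have hν1 : -2 ≤ ν := by nlinarith [sq_nonneg d]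
  have hv : base (psum L 2) (psum L 3) =
      6 * σ ^ 2 * pw (psum L 2) * (1 - 2 / 29 * (ν * (ν ^ 2 - 3) / 2)) := by
    rw [base_eq hQ ((tau_sq_le hQ (cube_sq_le hL)).trans one_le_two)]
    conv_lhs => rw [e2, e3, ets]
    rw [e2]
  have key : base (psum L 2) (psum L 3) * L c - baseQ (psum L 2) (psum L 3) * fluxTrace L c 1 -
      3 / 2 * baseC (psum L 2) * fluxTrace L c 2 ≤ 0 := by
    have hb := mul_nonpos_of_nonneg_of_nonpos
      (mul_nonneg (pw_pos hQ).le (pow_nonneg hσ.le 3)) (boundary_poly hν1 hν2)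
    refine le_trans (le_of_eq ?_) hb
    rw [hv, fluxTrace, fluxTrace, e4, ec, baseQ, baseC]
    generalize pw (psum L 2) = P₀
    rw [e2, e3, ets, ers]
    field_simp
    ring
  have hex := (cut_excess hε (base_nonneg (psum L 2) (psum L 3))).1
  have h := mul_nonpos_of_nonneg_of_nonpos (cutD_nonneg (ε := ε) (base (psum L 2) (psum L 3))) key
  have h' := mul_nonpos_of_nonneg_of_nonpos hex hc
  simp only [phi, coef0, coef1]
  linarith

end

end Vale.Agent.P098.Cone.Four
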