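import Vale.Agent.P098.Regularity.Cone.Four.Ineq
import Vale.Agent.P098.Regularity.Cone.Low

/-!
P098, block B6 in dimension four. The test function `Q^(1/3) (1 - 2τ/29)` is critical, but its
excess vanishes only where `tr H³ ≤ 0` on the free boundary; then the test function `Q^(1/2)`
applies.
-/

open Filter Matrix
open scoped Topology ContDiff RealInnerProductSpace

namespace Vale.Agent.P098.Cone.Four

open Vale.Agent.P098.ReduceN
open Vale.Agent.P098.Reduce (Mat hessM thirdM posVec conj rot contract conj_mulVec dot_rot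
  contract_rot)

noncomputable section

/-- The tangential gradient. -/
def tanGrad (v : Euc 4 → ℝ) (x : Euc 4) : Fin 4 → ℝ :=
  gradVec v x - (v x / ‖x‖) • (‖x‖⁻¹ • posVec x)

/-- The quantity detected by the test function. -/
def detect (v : Euc 4 → ℝ) (x : Euc 4) : ℝ :=
  ((2 / 3 * (argOf v x).1) • tanGrad v x -
      (‖x‖ • hessM v x) *ᵥ ((‖x‖ • hessM v x) *ᵥ tanGrad v x)) ⬝ᵥ
    (‖x‖ ^ 3 • contract (hessM v x) (thirdM v x) 1)

/-- The excess of the test function. -/
def loss (v : Euc 4 → ℝ) (x : Euc 4) : ℝ :=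
  -(excess (argOf v x).1 * detect v x ^ 2) / ‖x‖ ^ 4

variable {u v : Euc 4 → ℝ} {W : Set (Euc 4)} (hu : IsSmoothCone u) (hW : IsOpen W)
  (hsub : closure (posSet u) \ {0} ⊆ W) (hv : ContDiffOn ℝ ∞ v W)
  (hvu : Set.EqOn v u (posSet u))
  (hbd : ∀ x ∈ frontier (posSet u), x ≠ 0 → ‖fderiv ℝ v x‖ = 1)

lemma continuousAt_loss {x : Euc 4} (hx : x ≠ 0) (h : ContDiffAt ℝ 4 v x) :
    ContinuousAt (loss v) x := by
  have hQ : ContinuousAt (fun y => (argOf v y).1) x :=
    (contDiffAt_argOf (n := 3) hx h).fst.continuousAt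
  have hr : ContinuousAt (fun y : Euc 4 => ‖y‖) x := continuous_norm.continuousAt
  have hg : ∀ i, ContinuousAt (pd i v) x := fun i =>
    (contDiffAt_pd h (m := 3) (by norm_num) i).continuousAt
  have hH : ∀ i j, ContinuousAt (fun y => hessM v y i j) x := fun i j => by
    simpa [hessM] using (contDiffAt_hess_pow (n := 3) h 1 i j).continuousAt
  have hC : ∀ k, ContinuousAt (fun y => contract (hessM v y) (thirdM v y) 1 k) x := fun k => by
    simp only [contract, Matrix.trace, Matrix.diag, Matrix.mul_apply, pow_one]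
    exact tendsto_finsetSum _ fun i _ => tendsto_finsetSum _ fun p _ =>
      ((contDiffAt_pd (contDiffAt_pd (contDiffAt_pd h (m := 3) (by norm_num) i) (m := 2)
        (by norm_num) p) (m := 1) (by norm_num) k).continuousAt).mul (hH p i)
  have hp : ∀ k, ContinuousAt (fun y => tanGrad v y k) x := fun k => by
    simp only [tanGrad, Pi.sub_apply, Pi.smul_apply, smul_eq_mul, gradVec, posVec]
    exact (hg k).sub ((h.continuousAt.div hr (norm_ne_zero_iff.2 hx)).mul
      ((hr.inv₀ (norm_ne_zero_iff.2 hx)).mul (EuclideanSpace.proj (𝕜 := ℝ) k).continuous.continuousAt))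
  have hd : ContinuousAt (detect v) x := by
    unfold detect
    simp only [Matrix.mulVec, dotProduct, Pi.sub_apply, Pi.smul_apply, Matrix.smul_apply, smul_eq_mul]
    exact tendsto_finsetSum _ fun k _ => (((continuousAt_const.mul hQ).mul (hp k)).sub
      (tendsto_finsetSum _ fun i _ => (hr.mul (hH k i)).mul
        (tendsto_finsetSum _ fun j _ => (hr.mul (hH i j)).mul (hp j)))).mul ((hr.pow 3).mul (hC k))
  exact (((continuous_excess.continuousAt.comp hQ).mul (hd.pow 2)).neg).div (hr.pow 4)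
    (pow_ne_zero _ (norm_ne_zero_iff.2 hx))

include hu hW hsub hv hvu hbd in
/-- The pointwise bound with its excess. -/
lemma expr_le {ε : ℝ} (hε : 0 < ε) {x : Euc 4} (hx : x ∈ posSet u) (y : Fin 4 → ℝ) :
    ((∑ i, y i * pd i (certF 3 (fourData ε).Φ v) x) -
        (∑ i, y i ^ 2) * certF 3 (fourData ε).Φ v x +
        ∑ k, pd k (certV 3 twoFields (fourData ε) v k) x) * ‖x‖ ^ 4 ≤
      2 * ε - cutD ε (base (argOf v x).1 (argOf v x).2.2.2.1) *
        (excess (argOf v x).1 * detect v x ^ 2) := by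
  obtain ⟨O, L, q, hO, hF, hOe, hg, hconj, -, hle, harg⟩ :=
    jet_frame (n := 3) hu hW hsub hv hvu hbd three_pos hx
  obtain ⟨hd1, hd2⟩ := contDiff_fourData hε
  rw [expr_frame (n := 3) hu hW hsub hv hvu (hd1.differentiable two_ne_zero)
    (fun m => (hd2 m).differentiable two_ne_zero) (fun j => j.elim0) (fun i => i.elim0)
    hx hO hOe hg hconj y, harg]
  have hL := hF.sum_zero
  obtain ⟨hnn, htr⟩ := triple_four hε hL (v x / ‖x‖) ((v x / ‖x‖) ^ 2 + ∑ c, q c ^ 2)
  set t := rot O fun k => ‖x‖ ^ 2 • thirdM v x k with ht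
  set b := fun c : Fin 3 => (2 / 3 * psum L 2 - L c ^ 2) *
    usum L (fun i => t c.succ i.succ i.succ) 1 with hb
  have hdet : detect v x = ∑ c, q c * b c := by
    have hgp : O.transpose *ᵥ tanGrad v x = Fin.cons 0 q := by
      rw [tanGrad, Matrix.mulVec_sub, Matrix.mulVec_smul, hOe, hg]
      funext k
      cases k using Fin.cases <;> simp
    have hC : O.transpose *ᵥ (‖x‖ ^ 3 • contract (hessM v x) (thirdM v x) 1) =
        contract (frameHess L) t 1 := by
      rw [← hconj, ht, contract_rot hO]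
      refine congrArg _ (funext fun k => ?_)
      simp only [contract, Pi.smul_apply, Matrix.smul_mul, Matrix.mul_smul, pow_one,
        Matrix.trace_smul, smul_eq_mul, smul_smul]
      ring
    rw [detect, ← dot_rot hO, hC, Matrix.mulVec_sub, Matrix.mulVec_smul,
      ← conj_mulVec hO, ← conj_mulVec hO, hconj, hgp, hF.contract_eq 0, harg]
    simp only [dotProduct, Fin.sum_univ_succ (n := 3), Pi.sub_apply, Pi.smul_apply, smul_eq_mul,
      frameHess, Matrix.mulVec_diagonal, Fin.cons_zero, Fin.cons_succ, hb]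
    rw [show (2 / 3 * psum L 2 * 0 - 0 * (0 * 0)) * -psum L (0 + 2) = 0 by ring, zero_add]
    exact Finset.sum_congr rfl fun c _ => by ring
  have hS : detect v x ^ 2 ≤ ∑ c, b c ^ 2 := by
    rw [hdet]
    refine (Finset.sum_mul_sq_le_sq_mul_sq _ _ _).trans
      (mul_le_of_le_one_left (Finset.sum_nonneg fun c _ => sq_nonneg _) ?_)
    linarith [sq_nonneg (v x / ‖x‖)]
  refine (hF.jetExpr_le_sum hnn htr _).trans ?_
  refine (add_le_add (Finset.sum_le_sum fun c _ => block_four hε hL _ _ _ _ c (hF.diag_sum_zero c))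
    (const_four hε hL _ _)).trans ?_
  rw [Finset.sum_neg_distrib, ← Finset.mul_sum]
  have hQ : 0 ≤ psum L 2 := Finset.sum_nonneg fun i _ => sq_nonneg _
  have := mul_le_mul_of_nonneg_left hS
    (mul_nonneg (cutD_nonneg (ε := ε) (base (psum L 2) (psum L 3))) (excess_nonneg hQ))
  simp only [hb] at this
  linarith

/-- The fields used to bound the normal eigenvalue. -/
def sqFields : Fields := ⟨0, 2, 0, ![], ![0, 2], ![], ![]⟩

lemma sum_sq_B (f : Fin sqFields.J → ℝ) :
    ∑ j, f j = f ⟨0, Nat.zero_lt_two⟩ + f ⟨1, Nat.one_lt_two⟩ :=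
  Fin.sum_univ_two f

lemma sum_sq_A (f : Fin sqFields.M → ℝ) : ∑ m, f m = 0 := Fin.sum_univ_zero f

include hu hW hsub hv hvu hbd in
/-- Where `tr H³ > 0` on the free boundary the excess is not zero. -/
lemma loss_ne_zero {x : Euc 4} (hx : x ∈ frontier (posSet u)) (hx0 : x ≠ 0)
    (hC : 0 < (argOf v x).2.2.2.1) : loss v x ≠ 0 := by
  have hr : 0 < ‖x‖ := norm_pos_iff.2 hx0
  obtain ⟨L, hL, hQ, hC3⟩ := arg_frame (n := 3) hu hW hsub hv hvu hx.1 hx0
  have hQ0 : 0 < (argOf v x).1 := by
    have h : 0 ≤ psum L 2 := Finset.sum_nonneg fun i _ => sq_nonneg _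
    have hcs := cube_sq_le hL
    rw [hC3] at hC
    rcases h.eq_or_lt with h0 | h0
    · rw [← h0] at hcs
      nlinarith
    · rwa [hQ]
  have hv0 : v x = 0 := by
    rw [eqOn_closure_of_ne hu hsub hv hvu hx.1 hx0]
    refine le_antisymm (not_lt.1 fun h => ?_) (hu.nonneg x)
    exact hx.2 (by rw [(isOpen_posSet hu).interior_eq]; exact h)
  have htau := boundary_tau (n := 3) hu hW hsub hv hvu hbd three_pos hx hx0
  have hν := hessGrad_dot_nonpos hu hW hsub hv hvu hbd (by norm_num) hx hx0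
  set N := ∑ k, hessGrad v k x * pd k v x with hN
  have hHg : hessM v x *ᵥ gradVec v x = N • gradVec v x := by
    funext k
    obtain ⟨hs, -⟩ := jet_props hu hW hsub hv hvu hx.1 hx0
    rw [Pi.smul_apply, smul_eq_mul, gradVec, ← hessGrad_eq hu hW hsub hv hvu hbd hx hx0 k,
      Matrix.mulVec, dotProduct, hessGrad]
    refine Finset.sum_congr rfl fun j _ => ?_
    rw [show hessM v x k j = hessM v x j k from congrFun (congrFun hs j) k]
    exact mul_comm _ _
  have hsq : (‖x‖ * N) ^ 2 ≤ (argOf v x).1 / 2 := by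
    set D : Data sqFields (Arg → ℝ) := ⟨fun _ => 0, fun m => m.elim0,
      ![fun z => if 0 < z.2.2.2.1 then -(z.1 / 2) else 0,
        fun z => if 0 < z.2.2.2.1 then 1 else 0], fun i => i.elim0⟩ with hD
    have hB : BoundaryIneq 3 sqFields D 0 := by
      intro L hL a ha
      simp only [sum_sq_A, sum_sq_B, sum_none (σ := sqFields) rfl]
      obtain ⟨i, j, -, -, hsm⟩ := others a
      rw [hsm] at hL
      simp only [D, sqFields]
      by_cases h : 0 < psum L 3
      · simp [h]
        rw [show psum L 2 = L a ^ 2 + L i ^ 2 + L j ^ 2 from hsm _]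
        rw [show psum L 3 = L a ^ 3 + L i ^ 3 + L j ^ 3 from hsm _,
          show L a = -(L i + L j) by linarith] at h
        rw [show L a = -(L i + L j) by linarith] at ha ⊢
        by_contra hne
        nlinarith [mul_nonpos_of_nonpos_of_nonneg ha (sub_nonneg.2 (le_of_lt (not_le.1 hne)))]
      · simp [h]
    have h := flux_le (n := 3) hu hW hsub hv hvu hbd three_pos hB hx hx0
    have e : ∀ k, certV 3 sqFields D v k x = ‖x‖ ^ (-(3 : ℤ)) * (-((argOf v x).1 / 2)) * pd k v x +
        ‖x‖ ^ (-(1 : ℤ)) * (N * (N * pd k v x)) := fun k => by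
      simp only [certV, sum_sq_A, sum_sq_B, sum_none (σ := sqFields) rfl, zero_add, add_zero]
      simp [D, sqFields, hC, expB, pow_two, ← Matrix.mulVec_mulVec, hHg, Matrix.mulVec_smul, gradVec]
    have hsum : ∑ k, pd k v x * pd k v x = 1 := by
      have h : gradSq v x = 1 := by rw [← norm_fderiv_sq, hbd x hx hx0]; norm_num
      exact h
    rw [show certF 3 D.Φ v x = 0 by simp [certF, D], zero_mul, add_zero, zero_div] at h
    simp only [e, add_mul, Finset.sum_add_distrib, mul_assoc, ← Finset.mul_sum, hsum, mul_one] at h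
    rw [_root_.zpow_neg, _root_.zpow_neg, zpow_one, show (3 : ℤ) = ((3 : ℕ) : ℤ) from rfl,
      zpow_natCast] at h
    have h2 := mul_nonpos_of_nonneg_of_nonpos (pow_nonneg hr.le 3) h
    rw [mul_add, ← mul_assoc, mul_inv_cancel₀ (pow_ne_zero 3 hr.ne'), one_mul] at h2
    have e2 : ‖x‖ ^ 3 * (‖x‖⁻¹ * (N * N)) = (‖x‖ * N) ^ 2 := by field_simp
    linarith
  have hd : detect v x = (2 / 3 * (argOf v x).1 - (‖x‖ * N) ^ 2) *
      (2 * (‖x‖ * N) * (argOf v x).1 - (argOf v x).2.2.2.1) := by
    have hHg' : (‖x‖ • hessM v x) *ᵥ gradVec v x = (‖x‖ * N) • gradVec v x := by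
      rw [Matrix.smul_mulVec, hHg, smul_smul]
    rw [← htau, detect, tanGrad, hv0, zero_div, zero_smul, sub_zero, hHg', Matrix.mulVec_smul, hHg',
      smul_smul, ← sub_smul, smul_dotProduct, dotProduct_smul, smul_eq_mul, smul_eq_mul]
    simp only [gradVec, dotProduct, Finset.mul_sum]
    exact Finset.sum_congr rfl fun k _ => by ring
  have h1 : detect v x ≠ 0 := by
    rw [hd]
    refine mul_ne_zero (by linarith) (ne_of_lt ?_)
    have := mul_nonpos_of_nonpos_of_nonneg (mul_nonpos_of_nonneg_of_nonpos hr.le hν) hQ0.le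
    linarith
  have h2 : 0 < excess (argOf v x).1 := by unfold excess; positivity
  unfold loss
  have h3 : 0 < excess (argOf v x).1 * detect v x ^ 2 := mul_pos h2 (by positivity)
  exact div_ne_zero (neg_ne_zero.2 h3.ne') (by positivity)

include hu hW hsub hv hvu in
/-- Positive multiples of boundary points stay on the boundary with the same arguments. -/
lemma frontier_smul {x : Euc 4} (hx : x ∈ frontier (posSet u)) (hx0 : x ≠ 0) {r : ℝ}
    (hr : 0 < r) : r • x ∈ frontier (posSet u) ∧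
      (argOf v (r • x)).2.2.2.1 = (argOf v x).2.2.2.1 := by
  have hc : r • x ∈ closure (posSet u) :=
    map_mem_closure (continuous_const_smul r) hx.1 fun y hy => smul_mem_posSet hu hy hr
  have hi : x ∉ posSet u := fun h => hx.2 (by rw [(isOpen_posSet hu).interior_eq]; exact h)
  refine ⟨⟨hc, fun h => hi ?_⟩, ?_⟩
  · rw [(isOpen_posSet hu).interior_eq] at h
    have := smul_mem_posSet hu h (inv_pos.2 hr)
    rwa [smul_smul, inv_mul_cancel₀ hr.ne', one_smul] at this
  · have h4 : ∀ {y}, y ∈ closure (posSet u) → y ≠ 0 →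
        ContinuousAt (fun y => (argOf v y).2.2.2.1) y := fun hy hy0 =>
      ((contDiffAt_argOf (n := 3) hy0 ((hv.contDiffAt (hW.mem_nhds (hsub ⟨hy, hy0⟩))).of_le
        (WithTop.coe_le_coe.2 le_top))).snd.snd.snd.fst).continuousAt
    have hne : r • x ≠ 0 := smul_ne_zero hr.ne' hx0
    have h1 : ContinuousAt (fun y => (argOf v (r • y)).2.2.2.1) x :=
      ContinuousAt.comp (f := fun y : Euc 4 => r • y) (g := fun y => (argOf v y).2.2.2.1)
        (h4 hc hne) (continuous_const_smul r).continuousAt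
    have : (𝓝[posSet u] x).NeBot := mem_closure_iff_nhdsWithin_neBot.1 hx.1
    refine tendsto_nhds_unique (h1.tendsto.mono_left (nhdsWithin_le_nhds (s := posSet u)))
      (((h4 hx.1 hx0).tendsto.mono_left nhdsWithin_le_nhds).congr'
        (eventually_nhdsWithin_of_forall fun y hy => ?_))
    show _ = (argOf v (r • y)).2.2.2.1
    rw [argOf_smul hu hW hsub hv hvu hy hr]

include hu hW hsub hv hvu hbd in
/-- `tr H³ ≤ 0` on the free boundary of a stable cone in dimension four. -/
theorem cube_nonpos (hmin : IsStable u) :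
    ∀ x ∈ frontier (posSet u), x ≠ 0 → (argOf v x).2.2.2.1 ≤ 0 := by
  set W' := W \ ({0} : Set (Euc 4))
  have hWo : IsOpen W' := hW.sdiff isClosed_singleton
  have hsub' : closure (posSet u) \ {0} ⊆ W' := fun x hx => ⟨hsub hx, hx.2⟩
  have hv' : ContDiffOn ℝ ∞ v W' := hv.mono Set.sdiff_subset
  have h4 : ∀ x ∈ W', ContDiffAt ℝ 4 v x := fun x hx =>
    (hv'.contDiffAt (hWo.mem_nhds hx)).of_le (WithTop.coe_le_coe.2 le_top)
  have hq : ContinuousOn (loss v) W' := fun x hx =>
    (continuousAt_loss hx.2 (h4 x hx)).continuousWithinAt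
  have hQ0 : ∀ x ∈ posSet u, 0 ≤ (argOf v x).1 ∧
      0 ≤ excess (argOf v x).1 * detect v x ^ 2 := fun x hx => by
    obtain ⟨L, -, hQ, -⟩ := arg_frame (n := 3) hu hWo hsub' hv' hvu (subset_closure hx)
      (ne_zero_of_mem_posSet hu hx)
    have h : 0 ≤ (argOf v x).1 := hQ ▸ Finset.sum_nonneg fun i _ => sq_nonneg _
    exact ⟨h, mul_nonneg (excess_nonneg h) (sq_nonneg _)⟩
  have key : ∀ x ∈ posSet u, 1 < ‖x‖ → ‖x‖ < 2 → loss v x = 0 := by
    refine family_eq_zero (F := fun ε => certF 3 (fourData ε).Φ v)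
      (V := fun ε => certV 3 twoFields (fourData ε) v) (δ := fun _ => 0)
      hu hWo hsub' hv' hvu hmin hbd tendsto_const_nhds ?_ ?_ ?_ ⟨2, ?_⟩ hq ?_ ?_
    · filter_upwards [self_mem_nhdsWithin] with ε (hε : 0 < ε)
      exact ⟨fun x hx => (contDiffAt_certF (contDiff_fourData hε).1 hx.2 (h4 x hx)).contDiffWithinAt,
        fun x hx => mul_nonneg (zpow_nonneg (norm_nonneg _) _) (cut_pos hε _).le,
        (homOn_cert hu hWo hsub' hv' hvu (fourData ε)).1⟩
    · filter_upwards [self_mem_nhdsWithin] with ε (hε : 0 < ε) k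
      exact ⟨fun x hx => (contDiffAt_certV
        (fun m => ((contDiff_fourData hε).2 m).of_le one_le_two) (fun j => j.elim0)
        (fun i => i.elim0) hx.2 (h4 x hx) k).contDiffWithinAt,
        (homOn_cert hu hWo hsub' hv' hvu (fourData ε)).2 k⟩
    · filter_upwards [self_mem_nhdsWithin] with ε (hε : 0 < ε) x hx hx0
      refine (flux_le hu hWo hsub' hv' hvu hbd three_pos (boundary_four hε) hx hx0).trans_eq ?_
      simp
    · filter_upwards [self_mem_nhdsWithin,
        nhdsWithin_le_nhds (eventually_le_nhds (one_pos (α := ℝ)))] with ε (hε : 0 < ε) hε1 x hx h1 _ y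
      have h := expr_le hu hWo hsub' hv' hvu hbd hε hx y
      have h5 : 1 ≤ ‖x‖ ^ 4 := one_le_pow₀ h1
      have h6 := mul_nonneg (cutD_nonneg (ε := ε) (base (argOf v x).1 (argOf v x).2.2.2.1))
        (hQ0 x hx).2
      refine le_of_mul_le_mul_right (h.trans ?_) (by linarith : (0 : ℝ) < ‖x‖ ^ 4)
      linarith
    · exact fun x hx => div_nonpos_of_nonpos_of_nonneg (neg_nonpos.2 (hQ0 x hx).2) (by positivity)
    · intro x hx h1 _ c hc
      have h5 : 1 ≤ ‖x‖ ^ 4 := one_le_pow₀ h1
      have hev : ∀ᶠ ε : ℝ in 𝓝[>] 0, cutD ε (base (argOf v x).1 (argOf v x).2.2.2.1) *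
          (excess (argOf v x).1 * detect v x ^ 2) = excess (argOf v x).1 * detect v x ^ 2 := by
        rcases (hQ0 x hx).1.eq_or_lt with h0 | h0
        · exact Eventually.of_forall fun ε => by rw [← h0]; simp [excess]
        · filter_upwards [self_mem_nhdsWithin, nhdsWithin_le_nhds (eventually_le_nhds
            (half_pos (base_pos h0 (argOf v x).2.2.2.1)))] with ε (hε : 0 < ε) hle
          rw [cutD_eq_one hε (by linarith), one_mul]
      filter_upwards [self_mem_nhdsWithin, nhdsWithin_le_nhds (eventually_le_nhds (half_pos hc)),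
        hev] with ε (hε : 0 < ε) hε1 he y
      have h := expr_le hu hWo hsub' hv' hvu hbd hε hx y
      rw [he] at h
      refine le_of_mul_le_mul_right (h.trans ?_) (by linarith : (0 : ℝ) < ‖x‖ ^ 4)
      rw [add_mul, loss, div_mul_cancel₀ _ (by linarith : ‖x‖ ^ 4 ≠ 0)]
      linarith [le_mul_of_one_le_right hc.le h5]
  intro x hx hx0
  by_contra hpos
  rw [not_le] at hpos
  have hn : 0 < ‖x‖ := norm_pos_iff.2 hx0
  obtain ⟨hy, hCy⟩ := frontier_smul hu hWo hsub' hv' hvu hx hx0
    (div_pos (by norm_num : (0 : ℝ) < 3 / 2) hn)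
  set y := (3 / 2 / ‖x‖) • x with hy'
  have hny : ‖y‖ = 3 / 2 := by
    rw [hy', norm_smul, Real.norm_eq_abs, abs_of_pos (div_pos (by norm_num) hn),
      div_mul_cancel₀ _ hn.ne']
  have hy0 : y ≠ 0 := fun h => by rw [h, norm_zero] at hny; norm_num at hny
  refine loss_ne_zero hu hWo hsub' hv' hvu hbd hy hy0 (hCy ▸ hpos) ?_
  have : (𝓝[posSet u] y).NeBot := mem_closure_iff_nhdsWithin_neBot.1 hy.1
  refine tendsto_nhds_unique (l := 𝓝[posSet u] y)
    ((continuousAt_loss hy0 (h4 y (hsub' ⟨hy.1, hy0⟩))).tendsto.mono_left nhdsWithin_le_nhds)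
    (tendsto_const_nhds.congr' ?_)
  filter_upwards [self_mem_nhdsWithin, nhdsWithin_le_nhds
    ((continuous_norm.tendsto y).eventually (eventually_gt_nhds (show 1 < ‖y‖ by rw [hny]; norm_num))),
    nhdsWithin_le_nhds ((continuous_norm.tendsto y).eventually
      (eventually_lt_nhds (show ‖y‖ < 2 by rw [hny]; norm_num)))] with z hz h1 h2
  exact (key z hz h1 h2).symm

end

end Vale.Agent.P098.Cone.Four

namespace Vale.Agent.P098.Cone

/-- B6 in dimension four. -/
theorem coneBlock_four : ConeBlock 4 := by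
  intro u hu hmin
  obtain ⟨W, v, hW, hsub, hv, hvu, hbd⟩ := hu.smooth
  exact flat_of_cube_nonpos (n := 3) hu hW hsub hv hvu hbd three_pos (by norm_num) kato_three hmin
    (Four.cube_nonpos hu hW hsub hv hvu hbd hmin)

end Vale.Agent.P098.Cone
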