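import Mathlib

/-!
P098, block B6 in dimension four: the polynomial inequalities in one variable of the test function
`Q^(1/3) (1 - 2τ/29)`. The coefficients are exact and every sign is read off the Bernstein
coefficients on the two halves of `[-2, 2]`.
-/

namespace Vale.Agent.P098.Cone.Four

noncomputable section

/-- Sums of products of two nonnegative numbers. -/
lemma sqrt_parts {t : ℝ} (h : 0 ≤ t) : ∃ a : ℝ, t = a ^ 2 := ⟨√t, (Real.sq_sqrt h).symm⟩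

/-- The coefficient of `a²`, divided by `ν² - 4`. -/
def coefA (ν : ℝ) : ℝ :=
    (6186000 : ℝ) +
    (-6329250 : ℝ) * ν +
    (-721359 : ℝ) * ν ^ 2 +
    (2081562 : ℝ) * ν ^ 3 +
    (367371 : ℝ) * ν ^ 4 +
    (16443 : ℝ) * ν ^ 5 +
    (-49875 : ℝ) * ν ^ 6 +
    (-2349 : ℝ) * ν ^ 7

/-- The coefficient of `b²`, up to sign. -/
def coefG (ν : ℝ) : ℝ :=
    (5274752 : ℝ) +
    (-3978336 : ℝ) * ν +
    (2683936 : ℝ) * ν ^ 2 +
    (-1366886 : ℝ) * ν ^ 3 +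
    (-182109 : ℝ) * ν ^ 4 +
    (637478 : ℝ) * ν ^ 5 +
    (94457 : ℝ) * ν ^ 6 +
    (11745 : ℝ) * ν ^ 7 +
    (-16625 : ℝ) * ν ^ 8 +
    (-783 : ℝ) * ν ^ 9

/-- Half the coefficient of `d a b`. -/
def coefB (ν : ℝ) : ℝ :=
    (1044000 : ℝ) +
    (-2317312 : ℝ) * ν +
    (2072166 : ℝ) * ν ^ 2 +
    (295281 : ℝ) * ν ^ 3 +
    (-671930 : ℝ) * ν ^ 4 +
    (-122457 : ℝ) * ν ^ 5 +
    (-8613 : ℝ) * ν ^ 6 +
    (16625 : ℝ) * ν ^ 7 +
    (783 : ℝ) * ν ^ 8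

/-- The discriminant, divided by `4 - ν²`. -/
def coefD (ν : ℝ) : ℝ :=
    (29359807872000 : ℝ) +
    (-43479568224000 : ℝ) * ν +
    (8887868856000 : ℝ) * ν ^ 2 +
    (15368163720000 : ℝ) * ν ^ 3 +
    (-5321703618000 : ℝ) * ν ^ 4 +
    (-1952531082000 : ℝ) * ν ^ 5 +
    (937023372000 : ℝ) * ν ^ 6 +
    (852961050000 : ℝ) * ν ^ 7 +
    (63557946000 : ℝ) * ν ^ 8 +
    (-92656218000 : ℝ) * ν ^ 9 +
    (-20027808000 : ℝ) * ν ^ 10 +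
    (-230202000 : ℝ) * ν ^ 11 +
    (1396500000 : ℝ) * ν ^ 12 +
    (65772000 : ℝ) * ν ^ 13

lemma coefA_nonneg {ν : ℝ} (h : ν ^ 2 ≤ 4) : 0 ≤ coefA ν := by
  have h1 : -2 ≤ ν := by nlinarith
  have h2 : ν ≤ 2 := by nlinarith
  rcases le_total ν 0 with h0 | h0
  · have e : ∀ t s : ℝ, t = (ν + 2) / 2 → s = 1 - t → coefA ν =
      (1767000 : ℝ) * t ^ 0 * s ^ 7 +
      (51605292 : ℝ) * t ^ 1 * s ^ 6 +
      (208121796 : ℝ) * t ^ 2 * s ^ 5 +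
      (380093592 : ℝ) * t ^ 3 * s ^ 4 +
      (375307824 : ℝ) * t ^ 4 * s ^ 3 +
      (202971564 : ℝ) * t ^ 5 * s ^ 2 +
      (55960500 : ℝ) * t ^ 6 * s ^ 1 +
      (6186000 : ℝ) * t ^ 7 * s ^ 0 := by
      rintro t s rfl rfl
      unfold coefA
      ring
    obtain ⟨a, ha⟩ := sqrt_parts (t := (ν + 2) / 2) (by linarith)
    obtain ⟨b, hb⟩ := sqrt_parts (t := 1 - (ν + 2) / 2) (by linarith)
    rw [e _ _ rfl rfl, hb, ha]
    positivity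
  · have e : ∀ t s : ℝ, t = ν / 2 → s = 1 - t → coefA ν =
      (6186000 : ℝ) * t ^ 0 * s ^ 7 +
      (30643500 : ℝ) * t ^ 1 * s ^ 6 +
      (51069564 : ℝ) * t ^ 2 * s ^ 5 +
      (28857816 : ℝ) * t ^ 3 * s ^ 4 +
      (6973560 : ℝ) * t ^ 4 * s ^ 3 +
      (29249100 : ℝ) * t ^ 5 * s ^ 2 +
      (35027964 : ℝ) * t ^ 6 * s ^ 1 +
      (10206000 : ℝ) * t ^ 7 * s ^ 0 := by
      rintro t s rfl rfl
      unfold coefA
      ring
    obtain ⟨a, ha⟩ := sqrt_parts (t := ν / 2) (by linarith)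
    obtain ⟨b, hb⟩ := sqrt_parts (t := 1 - ν / 2) (by linarith)
    rw [e _ _ rfl rfl, hb, ha]
    positivity

lemma coefG_nonneg {ν : ℝ} (h : ν ^ 2 ≤ 4) : 0 ≤ coefG ν := by
  have h1 : -2 ≤ ν := by nlinarith
  have h2 : ν ≤ 2 := by nlinarith
  rcases le_total ν 0 with h0 | h0
  · have e : ∀ t s : ℝ, t = (ν + 2) / 2 → s = 1 - t → coefG ν =
      (12276000 : ℝ) * t ^ 0 * s ^ 9 +
      (166594000 : ℝ) * t ^ 1 * s ^ 8 +
      (667254000 : ℝ) * t ^ 2 * s ^ 7 +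
      (1378416224 : ℝ) * t ^ 3 * s ^ 6 +
      (1726395136 : ℝ) * t ^ 4 * s ^ 5 +
      (1398339792 : ℝ) * t ^ 5 * s ^ 4 +
      (751951280 : ℝ) * t ^ 6 * s ^ 3 +
      (264280192 : ℝ) * t ^ 7 * s ^ 2 +
      (55429440 : ℝ) * t ^ 8 * s ^ 1 +
      (5274752 : ℝ) * t ^ 9 * s ^ 0 := by
      rintro t s rfl rfl
      unfold coefG
      ring
    obtain ⟨a, ha⟩ := sqrt_parts (t := (ν + 2) / 2) (by linarith)
    obtain ⟨b, hb⟩ := sqrt_parts (t := 1 - (ν + 2) / 2) (by linarith)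
    rw [e _ _ rfl rfl, hb, ha]
    positivity
  · have e : ∀ t s : ℝ, t = ν / 2 → s = 1 - t → coefG ν =
      (5274752 : ℝ) * t ^ 0 * s ^ 9 +
      (39516096 : ℝ) * t ^ 1 * s ^ 8 +
      (136973440 : ℝ) * t ^ 2 * s ^ 7 +
      (284507472 : ℝ) * t ^ 3 * s ^ 6 +
      (375971472 : ℝ) * t ^ 4 * s ^ 5 +
      (325207008 : ℝ) * t ^ 5 * s ^ 4 +
      (213059808 : ℝ) * t ^ 6 * s ^ 3 +
      (141426000 : ℝ) * t ^ 7 * s ^ 2 +
      (77274000 : ℝ) * t ^ 8 * s ^ 1 +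
      (17496000 : ℝ) * t ^ 9 * s ^ 0 := by
      rintro t s rfl rfl
      unfold coefG
      ring
    obtain ⟨a, ha⟩ := sqrt_parts (t := ν / 2) (by linarith)
    obtain ⟨b, hb⟩ := sqrt_parts (t := 1 - ν / 2) (by linarith)
    rw [e _ _ rfl rfl, hb, ha]
    positivity

lemma coefD_nonneg {ν : ℝ} (h : ν ^ 2 ≤ 4) : 0 ≤ coefD ν := by
  have h1 : -2 ≤ ν := by nlinarith
  have h2 : ν ≤ 2 := by nlinarith
  rcases le_total ν 0 with h0 | h0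
  · have e : ∀ t s : ℝ, t = (ν + 2) / 2 → s = 1 - t → coefD ν =
      (5904384000000 : ℝ) * t ^ 0 * s ^ 13 +
      (301286942592000 : ℝ) * t ^ 1 * s ^ 12 +
      (3144295261152000 : ℝ) * t ^ 2 * s ^ 11 +
      (15234349246176000 : ℝ) * t ^ 3 * s ^ 10 +
      (44185663432128000 : ℝ) * t ^ 4 * s ^ 9 +
      (85491209749248000 : ℝ) * t ^ 5 * s ^ 8 +
      (116245644625728000 : ℝ) * t ^ 6 * s ^ 7 +
      (113726132262720000 : ℝ) * t ^ 7 * s ^ 6 +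
      (80460455452416000 : ℝ) * t ^ 8 * s ^ 5 +
      (40764003439872000 : ℝ) * t ^ 9 * s ^ 4 +
      (14404328976864000 : ℝ) * t ^ 10 * s ^ 3 +
      (3369126126816000 : ℝ) * t ^ 11 * s ^ 2 +
      (468636638784000 : ℝ) * t ^ 12 * s ^ 1 +
      (29359807872000 : ℝ) * t ^ 13 * s ^ 0 := by
      rintro t s rfl rfl
      unfold coefD
      ring
    obtain ⟨a, ha⟩ := sqrt_parts (t := (ν + 2) / 2) (by linarith)
    obtain ⟨b, hb⟩ := sqrt_parts (t := 1 - (ν + 2) / 2) (by linarith)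
    rw [e _ _ rfl rfl, hb, ha]
    positivity
  · have e : ∀ t s : ℝ, t = ν / 2 → s = 1 - t → coefD ν =
      (29359807872000 : ℝ) * t ^ 0 * s ^ 13 +
      (294718365888000 : ℝ) * t ^ 1 * s ^ 12 +
      (1282106852064000 : ℝ) * t ^ 2 * s ^ 11 +
      (3171613585248000 : ℝ) * t ^ 3 * s ^ 10 +
      (4960889597952000 : ℝ) * t ^ 4 * s ^ 9 +
      (5311026258048000 : ℝ) * t ^ 5 * s ^ 8 +
      (4490038557504000 : ℝ) * t ^ 6 * s ^ 7 +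
      (3901612898880000 : ℝ) * t ^ 7 * s ^ 6 +
      (4024650509568000 : ℝ) * t ^ 8 * s ^ 5 +
      (4166299665216000 : ℝ) * t ^ 9 * s ^ 4 +
      (3468972860640000 : ℝ) * t ^ 10 * s ^ 3 +
      (1936979150688000 : ℝ) * t ^ 11 * s ^ 2 +
      (602220438144000 : ℝ) * t ^ 12 * s ^ 1 +
      (76527504000000 : ℝ) * t ^ 13 * s ^ 0 := by
      rintro t s rfl rfl
      unfold coefD
      ring
    obtain ⟨a, ha⟩ := sqrt_parts (t := ν / 2) (by linarith)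
    obtain ⟨b, hb⟩ := sqrt_parts (t := 1 - ν / 2) (by linarith)
    rw [e _ _ rfl rfl, hb, ha]
    positivity

/-- The normalised quadratic form of one block, times `24 (1 - 2τ/29)`. -/
def form (ν d a b : ℝ) : ℝ :=
  let τ := ν * (ν ^ 2 - 3) / 2
  let a₁ := -3 * ν * a + d * b
  let a₂ := (6 - 3 * ν ^ 2) * a - ν * d * b
  ((2 / 3 + 14 / 87 * τ) * a₁ - 6 / 29 * a₂) ^ 2 + 24 * (1 - 2 / 29 * τ) *
    ((2 / 27 + 91 / 1566 * τ) * a₁ ^ 2 - 7 / 87 * a₁ * a₂ +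
      a ^ 2 * (-10 / 3 - 70 / 87 * τ + 24 / 29 * ν) + b ^ 2 * (-2 - 14 / 29 * τ) +
      24 / 29 * d * a * b + 1 / 1000 * (4 - ν ^ 2) ^ 2 * a₁ ^ 2)

theorem form_le {ν d : ℝ} (hd : d ^ 2 = 12 - 3 * ν ^ 2) (a b : ℝ) : form ν d a b ≤ 0 := by
  have hν : ν ^ 2 ≤ 4 := by nlinarith [sq_nonneg d]
  have e : (315375 : ℝ) * form ν d a b = -((4 - ν ^ 2) * coefA ν) * a ^ 2 +
      2 * coefB ν * d * a * b - coefG ν * b ^ 2 := by
    unfold form coefA coefB coefG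
    linear_combination (b ^ 2 * (((2465812 : ℝ) +
      (15834 : ℝ) * ν +
      (-196281 : ℝ) * ν ^ 2 +
      (671930 : ℝ) * ν ^ 3 +
      (90957 : ℝ) * ν ^ 4 +
      (8613 : ℝ) * ν ^ 5 +
      (-16625 : ℝ) * ν ^ 6 +
      (-783 : ℝ) * ν ^ 7) / 3)) * hd
  have hdet : (4 - ν ^ 2) * coefA ν * coefG ν - d ^ 2 * coefB ν ^ 2 = (4 - ν ^ 2) * coefD ν := by
    rw [hd]
    unfold coefA coefB coefG coefD
    ring
  have hA := coefA_nonneg hν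
  have hG := coefG_nonneg hν
  have hD := mul_nonneg (sub_nonneg.2 hν) (coefD_nonneg hν)
  set A := (4 - ν ^ 2) * coefA ν
  have hA' : 0 ≤ A := mul_nonneg (sub_nonneg.2 hν) hA
  suffices 0 ≤ A * a ^ 2 - 2 * coefB ν * d * a * b + coefG ν * b ^ 2 by linarith
  rcases hA'.eq_or_lt with h | h
  · have h3 : d * coefB ν = 0 := by
      have : (d * coefB ν) ^ 2 ≤ 0 := by rw [← h] at hdet; nlinarith
      exact pow_eq_zero_iff two_ne_zero |>.1 (le_antisymm this (sq_nonneg _))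
    rw [← h]
    linear_combination mul_nonneg hG (sq_nonneg b) + 2 * a * b * h3
  · refine nonneg_of_mul_nonneg_right ?_ h
    nlinarith [sq_nonneg (A * a - d * coefB ν * b),
      mul_nonneg (hdet.symm ▸ hD : 0 ≤ A * coefG ν - d ^ 2 * coefB ν ^ 2) (sq_nonneg b)]

/-- The inequality on the free boundary. -/
theorem boundary_poly {ν : ℝ} (h1 : -2 ≤ ν) (h2 : ν ≤ 0) :
    6 * (1 - 2 / 29 * (ν * (ν ^ 2 - 3) / 2)) * ν -
      (1 / 3 + 7 / 87 * (ν * (ν ^ 2 - 3) / 2)) * (12 * ν - 6 * (ν * (ν ^ 2 - 3) / 2)) +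
      3 / 29 * (6 * ν * (ν * (ν ^ 2 - 3) / 2) - 18 + 6 * ν ^ 2) ≤ 0 := by
  have h4 : ν ^ 2 ≤ 4 := by nlinarith
  have hq : 14 * ν ^ 4 - 28 * ν ^ 3 - 86 * ν ^ 2 + 316 * ν - 216 ≤ 0 := by
    nlinarith [mul_le_mul_of_nonneg_left h4 (sq_nonneg ν), mul_nonneg (neg_nonneg.2 h2) (sub_nonneg.2 h4)]
  nlinarith [mul_nonpos_of_nonneg_of_nonpos (sq_nonneg (ν + 1)) hq]

end

end Vale.Agent.P098.Cone.Four
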